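import Vale.Agent.P297A41.Rows
import Vale.Agent.P009S24.Emb
import Vale.Agent.P297L93.Mor1

/-!
# Closed subschemes of the projective space have very ample data
-/

open CategoryTheory AlgebraicGeometry MvPolynomial HomogeneousLocalization

namespace Vale.Agent.P297A

open Vale.Agent.P009S (VA ev cst resid)
open Vale.Agent.P009.AV (PP eval_smul_eq_zero)
open Vale.Agent.P297G93.W

attribute [local instance] MvPolynomial.gradedAlgebra open_chartP

variable {G : Sch} {ι : Type} [Fintype ι]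

theorem vap24_ev (x : Pt G) (U : G.left.Opens) (h : P009S.pt x ∈ U) (t : Γ(U.toScheme, ⊤)) :
    ev x U h (U.topIso.hom t) = resid x (gU U _ h t) := by
  rw [Scheme.Opens.topIso_hom]
  exact congrArg (resid x) (G.left.presheaf.germ_res_apply _ _ _ t)

theorem vap24_cst (U : G.left.Opens) (c : ℂ) :
    U.topIso.hom (cG (U.ι ≫ G.hom) c) = cst G U c := by
  have : cst G ⊤ c = cG G.hom c := by
    change (G.hom.appLE ⊤ ⊤ le_top) _ = G.hom.appTop _
    rw [Scheme.Hom.appTop, Scheme.Hom.app_eq_appLE]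
    rfl
  rw [← appTop_cG, ← P009S.cst_res le_top, this]
  have h : U.ι.appTop ≫ U.topIso.hom = G.left.presheaf.map (homOfLE le_top).op := by
    rw [Scheme.Opens.ι_appTop, Scheme.Opens.topIso_hom]
    exact (G.left.presheaf.map_comp _ _).symm
  exact congrArg (fun f => f.hom (cG G.hom c)) h

theorem vap24_cx (x : Pt G) : (resid x).comp (cx G.hom (P009S.pt x)) = RingHom.id ℂ := by
  refine RingHom.ext fun c => ?_
  have h : P009S.pt x ∈ (⊤ : G.left.Opens) := trivial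
  rw [← gU_cG G.hom ⊤ _ h, RingHom.comp_apply, RingHom.comp_apply]
  refine (vap24_ev x ⊤ h _).symm.trans ?_
  rw [vap24_cst, P009S.ev_cst]
  rfl

theorem vap24_mem (i : G.left ⟶ Pj ι) (U : G.left.Opens) (j : ι) (u : ι → Γ(U.toScheme, ⊤))
    (hu : u j = 1) (hg : U.ι ≫ i = toP (U.ι ≫ G.hom) j u hu) (x : Pt G) (h : P009S.pt x ∈ U)
    {d : ℕ} {F : MvPolynomial ι ℂ} (hF : F ∈ gr ι d) :
    i (P009S.pt x) ∈ Proj.basicOpen (gr ι) F ↔
      eval (fun k => ev x U h (U.topIso.hom (u k))) F ≠ 0 := by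
  rw [mem_toP G.hom U _ h j u hu hg hF, ← P009S.resid_ne_zero, map_eval₂Hom, vap24_cx]
  simp only [vap24_ev]
  rfl

theorem vap24_gen (i : G.left ⟶ Pj ι) [IsClosedImmersion i] (j : ι)
    (u : ι → Γ((i ⁻¹ᵁ DP j).toScheme, ⊤)) (hu : u j = 1)
    (hg : (i ⁻¹ᵁ DP j).ι ≫ i = toP ((i ⁻¹ᵁ DP j).ι ≫ G.hom) j u hu)
    (t : Γ((i ⁻¹ᵁ DP j).toScheme, ⊤)) :
    ∃ p : MvPolynomial ι ℂ, t = eval₂ (cG ((i ⁻¹ᵁ DP j).ι ≫ G.hom)) u p := by
  let ψ : CommRingCat.of (Away (gr ι) (X j)) ⟶ Γ((i ⁻¹ᵁ DP j).toScheme, ⊤) := CommRingCat.ofHom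
    (awayHom (cG ((i ⁻¹ᵁ DP j).ι ≫ G.hom)) u (X j) (isUnit_X _ u hu))
  have hr : Set.range (DP j).ι = Set.range (chartP (ι := ι) j) := by
    rw [Scheme.Opens.range_ι, ← opensRange_chartP]
    rfl
  have h1 : toSp ψ = (i ∣_ DP j) ≫ (IsOpenImmersion.isoOfRangeEq _ _ hr).hom := by
    rw [← cancel_mono (chartP j), Category.assoc, IsOpenImmersion.isoOfRangeEq_hom_fac,
      morphismRestrict_ι, hg]
    rfl
  have h2 : IsClosedImmersion (toSp ψ) := by
    rw [h1]
    infer_instance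
  obtain ⟨z, rfl⟩ := (IsClosedImmersion.isAffine_surjective_of_isAffine (toSp ψ)).2 t
  obtain ⟨p, hp⟩ := exists_eval₂ j ((Scheme.ΓSpecIso _).hom z)
  refine ⟨p, ?_⟩
  rw [toSp_appTop]
  change awayHom _ u (X j) (isUnit_X _ u hu) ((Scheme.ΓSpecIso _).hom z) = _
  rw [← hp, eval₂_comp_left]
  congr 1
  · exact RingHom.ext fun c => awayHom_cz _ _ _ (isUnit_X _ u hu) c
  · exact funext fun k => awayHom_fr _ _ hu k

theorem vap24_main (i : G.left ⟶ Pj ι) [IsClosedImmersion i] (hs : i ≫ str ι = G.hom) :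
    ∃ (D : VA G ι ι) (e : Pt G → PP ℂ ι), D.IsEmb e ∧ ∀ (x : Pt G) (d : ℕ), ∀ F ∈ gr ι d,
      i (P009S.pt x) ∈ Proj.basicOpen (gr ι) F ↔ eval (e x).rep F ≠ 0 := by
  have hc : ∀ j : ι, ∃ (u : ι → Γ((i ⁻¹ᵁ DP j).toScheme, ⊤)) (hu : u j = 1),
      (i ⁻¹ᵁ DP j).ι ≫ i = toP ((i ⁻¹ᵁ DP j).ι ≫ G.hom) j u hu := fun j =>
    exists_toP _ _ (by rw [Category.assoc]; exact congrArg _ hs) j (by
      rw [Scheme.Hom.comp_preimage]
      exact Scheme.Opens.ι_preimage_self _)
  choose u hu hg using hc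
  have key := fun j => @vap24_mem G ι _ i _ j (u j) (hu j) (hg j)
  have haff : ∀ j : ι, IsAffineOpen (DP j) := fun j =>
    Proj.isAffineOpen_basicOpen (gr ι) (X j) (X_mem_gr j) one_pos
  let D : VA G ι ι :=
    { U := fun j => i ⁻¹ᵁ DP j
      r := id
      s := fun j k => (i ⁻¹ᵁ DP j).topIso.hom (u j k)
      aff := fun j => (haff j).preimage i
      cov := fun x => exists_mem_DP (i x)
      one := fun j => by rw [id, hu, map_one]
      mem := fun a b x h => (key a x h (X_mem_gr b)).trans (by rw [eval_X, id])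
      coc := fun a b x ha hb j => by
        have hF : (X j - C (ev x _ hb ((i ⁻¹ᵁ DP b).topIso.hom (u b j))) * X b :
            MvPolynomial ι ℂ) ∈ gr ι 1 :=
          sub_mem (X_mem_gr j) (by
            rw [← smul_eq_C_mul]
            exact Submodule.smul_mem _ _ (X_mem_gr b))
        have h1 := ((key a x ha hF).symm.trans (key b x hb hF)).not
        simp only [not_not, map_sub, map_mul, eval_X, eval_C, hu, map_one, mul_one,
          sub_self, iff_true, sub_eq_zero] at h1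
        exact h1.trans (mul_comm _ _)
      gen := fun j t => by
        obtain ⟨p, hp⟩ := vap24_gen i j (u j) (hu j) (hg j) ((i ⁻¹ᵁ DP j).topIso.inv t)
        refine ⟨p, ?_⟩
        have h1 := congrArg (i ⁻¹ᵁ DP j).topIso.hom.hom hp
        rw [eval₂_comp_left] at h1
        refine Eq.trans ?_ (h1.trans ?_)
        · exact (congrArg (fun f => f.hom t) (i ⁻¹ᵁ DP j).topIso.inv_hom_id).symm
        · congr 1
          exact RingHom.ext fun c => vap24_cst _ c }
  obtain ⟨e, he⟩ := D.exists_emb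
  refine ⟨D, e, he, fun x d F hF => ?_⟩
  obtain ⟨a, ha⟩ := D.cov (P009S.pt x)
  exact (key a x ha hF).trans (P009S.emb_eval he x ha hF).symm

theorem vap24 : VAP := fun G ι _ i hi hs => @vap24_main G ι _ i hi hs

end Vale.Agent.P297A
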